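import Crest.Agent.X212.Msi61.Lf
import Crest.Agent.X212.Eqv71.Cyl

/-!
# Row 212, MS-TRN and MS-PER (helper40): small translates converge strongly; periodic
configurations with a limit do not move
-/

set_option autoImplicit false
set_option linter.unusedSectionVars false
noncomputable section
open scoped Manifold ContDiff Topology InnerProductSpace
open MeasureTheory Set Function Filter

namespace Crest.Agent.X212.Trn40
open An M Cyf70 Nd18 Eqv71 Cmp73 Msi61
open Tmp64 (admOn_univ)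

section cv
variable {E : Type} [NormedAddCommGroup E] [NormedSpace ℝ E] [FiniteDimensional ℝ E]
  {H : Type} [TopologicalSpace H] {I : ModelWithCorners ℝ E H} [I.Boundaryless]
  {M : Type} [TopologicalSpace M] [ChartedSpace H M] [IsManifold I ∞ M]
  {G : Type} [NormedAddCommGroup G] [NormedSpace ℝ G]

/-- jointly smooth families converge smoothly -/
theorem cv_joint {f : ℝ → M → G} (h : ContMDiff (𝓘(ℝ, ℝ).prod I) 𝓘(ℝ, G) ∞ fun z : ℝ × M => f z.1 z.2)
    (t : ℝ) : Cv I (𝓝 t) univ f (f t) := by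
  refine ⟨fun k x _ => ?_, fun x _ =>
    (h.continuous.comp (continuous_id.prodMk continuous_const)).tendsto t⟩
  have hs := mem_chart_source H x
  have h1 : MB I (𝓝 t) x k fun n y => (n, extChartAt I x y) :=
    ((Cv.consts (I := I) (Ω := univ) tendsto_id).mb k x trivial).prodMk
      (MB.fixed (ev_chart_smooth hs))
  refine (h1.post_at (Φ := fun z : ℝ × E => f z.1 ((extChartAt I x).symm z.2))
    (c := (t, extChartAt I x x)) ?_ (tendsto_fst.prodMk_nhds
      ((tend_chart hs).comp tendsto_snd))).congr ?_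
  · filter_upwards [(continuousAt_snd (p := (t, extChartAt I x x))).eventually
      (ev_target (I := I) hs)] with z h3
    exact (ContMDiffAt.comp (g := fun z : ℝ × M => f z.1 z.2)
      (f := fun z : ℝ × E => (z.1, (extChartAt I x).symm z.2)) z (h _)
      (contDiffAt_fst.contMDiffAt.prodMk ((Dr59.contMDiffAt_chart_symm h3).comp z
        contDiffAt_snd.contMDiffAt))).contDiffAt
  · filter_upwards [tendsto_snd.eventually (extChartAt_source_mem_nhds (I := I) x)] with q hq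
    rw [(extChartAt I x).left_inv hq]

theorem cv_sh {f : M × ℝ → G} (h : ContMDiff (IC I) 𝓘(ℝ, G) ∞ f) :
    Cv (IC I) (𝓝 0) univ (fun s x => f (trZ s x)) f := by
  have k : ContMDiff (𝓘(ℝ, ℝ).prod (IC I)) (IC I) ∞ fun z : ℝ × M × ℝ => trZ z.1 z.2 :=
    (contMDiff_fst.comp contMDiff_snd).prodMk
      ((contMDiff_snd.comp contMDiff_snd).add contMDiff_fst)
  simpa only [trZ, add_zero] using cv_joint (f := fun s x => f (trZ s x)) (h.comp k) 0

end cv

variable {κ lam : Type} [Fintype κ] [Fintype lam] {Y : Mf 3} [CompactSpace Y.M]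
  {D : YD Y.I Y.M κ lam} {c : Cfg (Y.M × ℝ) (Option κ) lam 0} {β : YC Y.M κ lam} {ζ : Circle}

theorem lim0 (hD : D.OK) (hc : c.Adm D.B D.G) :
    ∃ u, ULim (IC Y.I) D.B (𝓝 0) univ (fun _ => D.Z.e) (fun s => sh s c) c u fun _ => 1 := by
  obtain ⟨u, h1, h2, -⟩ := (Bki64.cyD D).exists_tmp hD.B hc 0
  have o := Pj41.OK.on hc.ok univ
  have i := h2.iso
  have su : ContMDiff (IC Y.I) 𝓘(ℝ, An.En (Fin c.m.N)) ∞ u := fun x => i.su x trivial
  have hU : Cv (IC Y.I) (𝓝 (0 : ℝ)) univ (fun s x => Pj41.ad (u x) ∘L u (trZ s x)) c.m.p :=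
    ((Cv.fixed' fun x => (i.su x trivial).ad).clm_comp (cv_sh su)).congr' isOpen_univ
      (.of_forall fun _ _ _ => rfl) fun x _ => (i.iso x trivial).src.symm
  refine ⟨fun s x => Pj41.ad (u x) ∘L u (trZ s x), fun x _ => ⟨univ, isOpen_univ, trivial,
    .of_forall fun s => ?_⟩, fun a => ?_, ?_, ?_⟩
  · have k : Pj41.Iso0 (IC Y.I) (sh s c).m (Tmp64.Cy.tmpC D.G c 0 u).m univ fun x => u (trZ s x) :=
      Pj41.cm_iso0 (ψ := trZ s) (fun x _ => (contMDiff_fst.prodMk
        (contMDiff_snd.add contMDiff_const)) x) (mapsTo_univ _ _) i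
    exact (k.trans (i.symm o (Pj41.OK.on h1.ok _))).mEq (Pj41.OK.on (adm_sh hc s).ok _) o
  · have hW : ContMDiff (IC Y.I) 𝓘(ℝ, _) ∞ (c.W a) := fun x => hc.conn.cc.sm a x
    refine ((((hU.dv' isOpen_univ fun x _ => D.Z.sm a x).add ((Cv.fixed' hW).clm_comp hU)).sub
      (hU.clm_comp (cv_sh hW))).clm_comp (hU.clm trnL)).congr' isOpen_univ
      (.of_forall fun _ _ _ => rfl) fun x _ => ?_
    have := hc.conn.cc.par a x
    rw [← add_sub_assoc] at this
    erw [this]
    exact (ContinuousLinearMap.zero_comp _).symm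
  · exact (hU.app (cv_sh hc.sm)).congr' isOpen_univ (.of_forall fun _ _ _ => cs_one _ _)
      fun x _ => ((admOn_univ.2 hc).pΦ trivial).symm
  · exact tendsto_const_nhds.congr fun _ => Subsingleton.elim _ _

theorem cls_le {u S k η η'} (h : D.Cls c β u ζ S k η) (e : η ≤ η') : D.Cls c β u ζ S k η' :=
  ⟨h.op, h.m, fun a w j x hx => (h.A a w j x hx).trans e, fun w j x hx => (h.P w j x hx).trans e⟩

theorem tl {d σ : ℝ} (d0 : 0 < d) (hβ : D.Adm β) (hc : c.Adm D.B D.G) {l₀ : Filter ℝ}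
    (hσ : |σ| = 1) (hl : ∀ S ∈ l₀, ∃ T, ∀ t, T ≤ σ * t → t ∈ S) (H : D.nk.ELim d c β ζ l₀)
    {α : Type} {l : Filter α} {s : α → ℝ} (hs : Tendsto s l (𝓝 0)) :
    Tl D d l (fun m => sh (s m) c) β σ := by
  obtain ⟨u, S, hS, -, -, H⟩ := H
  obtain ⟨T, hT⟩ := hl S hS
  choose C H using H
  have σ2 : σ * σ = 1 := by rw [← abs_mul_abs_self, hσ, mul_one]
  have k : ∀ᶠ m in l, ∀ k t, T + 2 ≤ t → D.Cls (sh (s m) c) β (fun x => u (trZ (s m) x)) ζ
      (Ioo (σ * t - 1) (σ * t + 1)) k (|C k| * Real.exp d * Real.exp (-d * t)) := by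
    filter_upwards [hs.abs.eventually (gt_mem_nhds (abs_zero.trans_lt one_pos))] with m hm k t ht
    have h1 := cls_sh (c := c) hβ (ad0 hc) (H k (σ * t + s m) fun y hy => hT y ?_) (s m)
    · have e : (· + s m) ⁻¹' Ioo (σ * t + s m - 1) (σ * t + s m + 1) =
          Ioo (σ * t - 1) (σ * t + 1) := by
        rw [preimage_add_const_Ioo]; congr 1 <;> ring
      refine cls_le (e ▸ h1) ?_
      rw [mul_assoc, ← Real.exp_add]
      refine mul_le_mul (le_abs_self _) (Real.exp_le_exp.2 ?_) (Real.exp_pos _).le (abs_nonneg _)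
      have h2 := abs_sub_abs_le_abs_add (σ * t) (s m)
      rw [abs_mul, hσ, one_mul] at h2
      nlinarith [le_abs_self t]
    · have h2 : |σ * (y - σ * t)| ≤ 2 := by
        rw [abs_mul, hσ, one_mul, abs_le]
        constructor <;> linarith [hy.1, hy.2, (abs_lt.1 hm).1, (abs_lt.1 hm).2]
      rw [mul_sub, ← mul_assoc, σ2, one_mul, abs_le] at h2
      linarith [h2.1]
  exact ⟨T + 2, _, fun _ => ζ, k.mono fun m h j => ⟨_, h j⟩, fun j => ⟨_, k.mono fun m h => h j⟩⟩

variable (D)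

/-- **MS-TRN** -/
theorem trn : TrnL D := fun _ d0 _ _ _ _ _ hD hβ hβ' hc H H' _ _ s hs => by
  obtain ⟨u, h⟩ := lim0 hD hc
  refine ⟨⟨fun m => u (s m), fun _ => 1, fun x hx => (h.m x hx).imp fun _ k =>
    ⟨k.1, k.2.1, hs.eventually k.2.2⟩, fun a => (h.A a).reindex hs, h.Φ.reindex hs, h.z.comp hs⟩,
    tl d0 hβ hc (by simp) (fun S hS => ?_) H hs, tl d0 hβ' hc abs_one (fun S hS => ?_) H' hs⟩
  · obtain ⟨T, hT⟩ := mem_atBot_sets.1 hS
    exact ⟨-T, fun t ht => hT t (by linarith)⟩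
  · obtain ⟨T, hT⟩ := mem_atTop_sets.1 hS
    exact ⟨T, fun t ht => hT t (by linarith)⟩

/-- **MS-PER** -/
theorem perL : PerL D := fun c β ζ s u η h hβ hc ⟨v, H⟩ s0 e ⟨x, hx⟩ => by
  have hD := okZ h Y.dim.le
  have p : Periodic (fun t => Dgr80.en D.Z c Prod.snd (x.1, t)) s := fun t =>
    (hD.en_sh (ad0 hc) s (x.1, t)).symm.trans
      (hD.en_iso (ad0_sh (ad0 hc) s) (ad0 hc) e (x.1, t)).symm
  have p' : Periodic (fun t => Dgr80.en D.Z c Prod.snd (x.1, t)) |s| := by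
    rcases abs_choice s with k | k <;> rw [k]
    exacts [p, p.neg]
  obtain ⟨C, C0, hC⟩ := Bki64.ek_cy h hβ
  refine hx (le_antisymm (le_of_forall_pos_le_add fun ε ε0 => ?_) (Dgr80.en_nonneg _ _ _ _))
  obtain ⟨S, hS, -, k⟩ := H 1 (min 1 (ε / C)) (lt_min one_pos (div_pos ε0 C0))
  have a := (admOn_univ.2 hc).mono (subset_univ (univ ×ˢ S))
  obtain ⟨n, hn⟩ := ((tendsto_atTop_add_const_left _ x.2 (tendsto_natCast_atTop_atTop.atTop_mul_const
    (abs_pos.2 s0))).eventually hS).exists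
  have := (hC 0 c v ζ _ _ a (Bki64.cl_of_cls hβ a k) (min_le_left _ _) (x.1, x.2 + n * |s|)
    ⟨trivial, hn⟩).1
  refine (p'.nat_mul n x.2).symm.trans_le (this.trans ?_)
  rw [zero_add, ← le_div_iff₀' C0]
  exact min_le_right _ _

end Crest.Agent.X212.Trn40
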