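import Crest.Agent.X212.Trn40.Main

/-!
# Row 212, MS (helper40): strong convergence is translation invariant
-/

set_option autoImplicit false
set_option linter.unusedSectionVars false
noncomputable section
open scoped Manifold ContDiff Topology InnerProductSpace
open MeasureTheory Set Function Filter

namespace Crest.Agent.X212.Trn40
open An M Cyf70 Nd18 Eqv71 Cmp73 Msi61

section cv
variable {E : Type} [NormedAddCommGroup E] [NormedSpace ℝ E] [FiniteDimensional ℝ E]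
  {H : Type} [TopologicalSpace H] {I : ModelWithCorners ℝ E H} [I.Boundaryless]
  {M : Type} [TopologicalSpace M] [ChartedSpace H M] [IsManifold I ∞ M]
  {G : Type} [NormedAddCommGroup G] [NormedSpace ℝ G]

theorem cv_pre {α : Type} {l : Filter α} {f : α → M → G} {f' : M → G} {k : M → M}
    (h : Cv I l univ f f') (sm : ContMDiff I I ∞ k) :
    Cv I l univ (fun i z => f i (k z)) fun z => f' (k z) := by
  refine ⟨fun j z _ => ?_, fun z _ => h.pt _ trivial⟩
  have t := tend_symm (I := I) (mem_chart_source H z)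
  have hs := (sm z).continuousAt.eventually (chart_source_mem_nhds H (k z))
  refine (Pat85.CB.comp_fixed (ψ := fun y => extChartAt I (k z) (k ((extChartAt I z).symm y)))
    (by rw [extChartAt_to_inv]; exact h.mb j _ trivial) (ev_smooth_chart
      (φ := fun y => extChartAt I (k z) (k y)) (mem_chart_source H z) ?_)).congr
    ((tendsto_snd.eventually (t.eventually hs).eventually_nhds).mono fun q hq =>
      hq.mono fun y hy => ?_)
  · exact hs.mono fun y h1 => (contMDiffAt_extChartAt' h1).comp y (sm y)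
  · simp only
    rw [(extChartAt I (k z)).left_inv (by rw [extChartAt_source]; exact hy)]

theorem sm_tr (s : ℝ) : ContMDiff (IC I) (IC I) ∞ (trZ s : M × ℝ → M × ℝ) :=
  contMDiff_fst.prodMk (contMDiff_snd.add contMDiff_const)

end cv

variable {κ lam : Type} [Fintype κ] [Fintype lam] {Y : Mf 3} [CompactSpace Y.M]
  {D : YD Y.I Y.M κ lam} {α : Type} {l : Filter α} {c : α → Cfg (Y.M × ℝ) (Option κ) lam 0}
  {c₀ : Cfg (Y.M × ℝ) (Option κ) lam 0} {β β' : YC Y.M κ lam} {d : ℝ}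

theorem ulim_sh {u ζ} (h : ULim (IC Y.I) D.B l univ (fun _ => D.Z.e) c c₀ u ζ) (s : ℝ) :
    ULim (IC Y.I) D.B l univ (fun _ => D.Z.e) (fun i => sh s (c i)) (sh s c₀)
      (fun i x => u i (trZ s x)) ζ := by
  have t := sm_tr (I := Y.I) (M := Y.M) s
  refine ⟨fun x _ => ?_, fun a => (cv_pre (h.A a) t).congr (fun x _ => ?_) fun _ _ => rfl,
    cv_pre h.Φ t, h.z⟩
  · obtain ⟨N, a, b, k⟩ := h.m (trZ s x) trivial
    refine ⟨trZ s ⁻¹' N, a.preimage t.continuous, b, k.mono fun i k =>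
      ⟨k.su.comp t.contMDiffOn fun _ h => h, fun _ h => k.uu _ h, fun _ h => k.uu' _ h,
        fun _ h => k.J _ h, fun y h b => (k.ρ _ h b).trans ?_, fun _ h => k.j _ h⟩⟩
    simp only [fun a b => (Bki64.cyD D).P_sq (· + s) a b y |>.symm]
    rfl
  · obtain ⟨N, o, b, k⟩ := h.m (trZ s x) trivial
    refine (k.prod_mk ((o.preimage t.continuous).mem_nhds b)).mono fun q hq => ?_
    have e : D.Z.D a (fun x => u q.1 (trZ s x)) q.2 = D.Z.D a (u q.1) (trZ s q.2) :=
      (Tmp64.D_sq D.F.toPre (Tmp64.sm_add s) (hq.1.su.contMDiffAt (o.mem_nhds hq.2)) a).trans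
        (by cases a <;> simp [Tmp64.sw] <;> rfl)
    exact congrArg (fun T : CL (c q.1).m.V c₀.m.V => (T + c₀.W a (trZ s q.2) ∘L u q.1 (trZ s q.2) -
      u q.1 (trZ s q.2) ∘L (c q.1).W a (trZ s q.2)) ∘L An.trn (u q.1 (trZ s q.2))) e

theorem tl_sh {σ : ℝ} (σ2 : σ * σ = 1) (hβ : D.Adm β)
    (ha : ∀ᶠ i in l, (c i).Adm D.B D.G) (H : Tl D d l c β σ) (s : ℝ) :
    Tl D d l (fun i => sh s (c i)) β σ := by
  obtain ⟨T, v, ζ, h1, h2⟩ := H
  have k : ∀ i, (c i).Adm D.B D.G → ∀ k C, (∀ t, T ≤ t → D.Cls (c i) β (v i) (ζ i)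
      (Ioo (σ * t - 1) (σ * t + 1)) k (C * Real.exp (-d * t))) → ∀ t, T - σ * s ≤ t →
      D.Cls (sh s (c i)) β (fun x => v i (trZ s x)) (ζ i) (Ioo (σ * t - 1) (σ * t + 1)) k
        (C * Real.exp (-d * (σ * s)) * Real.exp (-d * t)) := fun i hi k C h t ht => by
    have := cls_sh hβ (ad0 hi) (h (t + σ * s) (by linarith)) s
    have e : (· + s) ⁻¹' Ioo (σ * (t + σ * s) - 1) (σ * (t + σ * s) + 1) =
        Ioo (σ * t - 1) (σ * t + 1) := by
      rw [preimage_add_const_Ioo, mul_add σ, ← mul_assoc σ, σ2]; congr 1 <;> ring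
    rwa [e, mul_add (-d), Real.exp_add, mul_comm (Real.exp _), ← mul_assoc] at this
  exact ⟨T - σ * s, fun i x => v i (trZ s x), ζ, (ha.and h1).mono fun i h j => let ⟨C, a⟩ := h.2 j; ⟨_, k i h.1 j C a⟩,
    fun j => let ⟨C, a⟩ := h2 j; ⟨_, (ha.and a).mono fun i h => k i h.1 j C h.2⟩⟩

theorem stg_sh (hβ : D.Adm β) (hβ' : D.Adm β') (ha : ∀ᶠ i in l, (c i).Adm D.B D.G)
    (H : Stg D d l c c₀ β β') (s : ℝ) : Stg D d l (fun i => sh s (c i)) (sh s c₀) β β' :=
  let ⟨_, _, h⟩ := H.lim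
  ⟨⟨_, _, ulim_sh h s⟩, tl_sh (by norm_num) hβ ha H.bot s, tl_sh (one_mul _) hβ' ha H.top s⟩

end Crest.Agent.X212.Trn40
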